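import Crest.Agent.H0047.Tab

namespace Crest.Agent.H0047

theorem ok8 : all tab c8 = true := by decide +kernel

theorem ok9 : all tab c9 = true := by decide +kernel

theorem ok10 : all tab c10 = true := by decide +kernel

theorem ok11 : all tab c11 = true := by decide +kernel

theorem ok12 : all tab c12 = true := by decide +kernel

theorem ok13 : all tab c13 = true := by decide +kernel

theorem ok14 : all tab c14 = true := by decide +kernel

theorem ok15 : all tab c15 = true := by decide +kernel

end Crest.Agent.H0047
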