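import Crest.Agent.H0047.Tab

namespace Crest.Agent.H0047

theorem ok16 : all tab c16 = true := by decide +kernel

theorem ok17 : all tab c17 = true := by decide +kernel

theorem ok18 : all tab c18 = true := by decide +kernel

theorem ok19 : all tab c19 = true := by decide +kernel

theorem ok20 : all tab c20 = true := by decide +kernel

theorem ok21 : all tab c21 = true := by decide +kernel

theorem ok22 : all tab c22 = true := by decide +kernel

theorem ok23 : all tab c23 = true := by decide +kernel

end Crest.Agent.H0047
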