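import Crest.Agent.H0047.Tab

namespace Crest.Agent.H0047

theorem ok24 : all tab c24 = true := by decide +kernel

theorem ok25 : all tab c25 = true := by decide +kernel

theorem ok26 : all tab c26 = true := by decide +kernel

theorem ok27 : all tab c27 = true := by decide +kernel

theorem ok28 : all tab c28 = true := by decide +kernel

theorem ok29 : all tab c29 = true := by decide +kernel

theorem ok30 : all tab c30 = true := by decide +kernel

theorem ok31 : all tab c31 = true := by decide +kernel

end Crest.Agent.H0047
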