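import Crest.Agent.H0047.Tab

namespace Crest.Agent.H0047

theorem ok32 : all tab c32 = true := by decide +kernel

theorem ok33 : all tab c33 = true := by decide +kernel

theorem ok34 : all tab c34 = true := by decide +kernel

theorem ok35 : all tab c35 = true := by decide +kernel

theorem ok36 : all tab c36 = true := by decide +kernel

theorem ok37 : all tab c37 = true := by decide +kernel

theorem ok38 : all tab c38 = true := by decide +kernel

theorem ok39 : all tab c39 = true := by decide +kernel

end Crest.Agent.H0047
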