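import Crest.Agent.H0047.Tab

namespace Crest.Agent.H0047

theorem ok40 : all tab c40 = true := by decide +kernel

theorem ok41 : all tab c41 = true := by decide +kernel

theorem ok42 : all tab c42 = true := by decide +kernel

theorem ok43 : all tab c43 = true := by decide +kernel

theorem ok44 : all tab c44 = true := by decide +kernel

theorem ok45 : all tab c45 = true := by decide +kernel

theorem ok46 : all tab c46 = true := by decide +kernel

theorem ok47 : all tab c47 = true := by decide +kernel

end Crest.Agent.H0047
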