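import Crest.Agent.H0047.Tab

namespace Crest.Agent.H0047

theorem ok48 : all tab c48 = true := by decide +kernel

theorem ok49 : all tab c49 = true := by decide +kernel

theorem ok50 : all tab c50 = true := by decide +kernel

theorem ok51 : all tab c51 = true := by decide +kernel

theorem ok52 : all tab c52 = true := by decide +kernel

theorem ok53 : all tab c53 = true := by decide +kernel

theorem ok54 : all tab c54 = true := by decide +kernel

theorem ok55 : all tab c55 = true := by decide +kernel

end Crest.Agent.H0047
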