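import Crest.Agent.H0047.Tab

namespace Crest.Agent.H0047

theorem ok56 : all tab c56 = true := by decide +kernel

theorem ok57 : all tab c57 = true := by decide +kernel

theorem ok58 : all tab c58 = true := by decide +kernel

theorem ok59 : all tab c59 = true := by decide +kernel

theorem ok60 : all tab c60 = true := by decide +kernel

theorem ok61 : all tab c61 = true := by decide +kernel

theorem ok62 : all tab c62 = true := by decide +kernel

theorem ok63 : all tab c63 = true := by decide +kernel

end Crest.Agent.H0047
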