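import Crest.Agent.H0047.K0
import Crest.Agent.H0047.K1
import Crest.Agent.H0047.K2
import Crest.Agent.H0047.K3
import Crest.Agent.H0047.K4
import Crest.Agent.H0047.K5
import Crest.Agent.H0047.K6
import Crest.Agent.H0047.K7

namespace Crest.Agent.H0047

theorem tab_ok : all tab tab = true :=
(all_n _ _ (all_n _ _ (all_n _ _ (all_n _ _ (all_n _ _ (all_n _ _ ok0 ok1) (all_n _ _ ok2 ok3)) (all_n _ _ (all_n _ _ ok4 ok5) (all_n _ _ ok6 ok7))) (all_n _ _ (all_n _ _ (all_n _ _ ok8 ok9) (all_n _ _ ok10 ok11)) (all_n _ _ (all_n _ _ ok12 ok13) (all_n _ _ ok14 ok15)))) (all_n _ _ (all_n _ _ (all_n _ _ (all_n _ _ ok16 ok17) (all_n _ _ ok18 ok19)) (all_n _ _ (all_n _ _ ok20 ok21) (all_n _ _ ok22 ok23))) (all_n _ _ (all_n _ _ (all_n _ _ ok24 ok25) (all_n _ _ ok26 ok27)) (all_n _ _ (all_n _ _ ok28 ok29) (all_n _ _ ok30 ok31))))) (all_n _ _ (all_n _ _ (all_n _ _ (all_n _ _ (all_n _ _ ok32 ok33) (all_n _ _ ok34 ok35)) (all_n _ _ (all_n _ _ ok36 ok37) (all_n _ _ ok38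 ok39))) (all_n _ _ (all_n _ _ (all_n _ _ ok40 ok41) (all_n _ _ ok42 ok43)) (all_n _ _ (all_n _ _ ok44 ok45) (all_n _ _ ok46 ok47)))) (all_n _ _ (all_n _ _ (all_n _ _ (all_n _ _ ok48 ok49) (all_n _ _ ok50 ok51)) (all_n _ _ (all_n _ _ ok52 ok53) (all_n _ _ ok54 ok55))) (all_n _ _ (all_n _ _ (all_n _ _ ok56 ok57) (all_n _ _ ok58 ok59)) (all_n _ _ (all_n _ _ ok60 ok61) (all_n _ _ ok62 ok63))))))

noncomputable def rootA : ℕ := ((((((0 ||| get tab 4750) ||| get tab 5219) ||| get tab 5396) ||| get tab 5515) ||| get tab 5525) ||| get tab 5532)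

noncomputable def rootN : ℕ := ((((((FULL &&& get tab 4750) &&& get tab 5219) &&& get tab 5396) &&& get tab 5515) &&& get tab 5525) &&& get tab 5532)

theorem root_acc : Acc 20 rootA rootN :=
(((((((acc_full 20).step (sound tab_ok 20 4750)).step (sound tab_ok 20 5219)).step (sound tab_ok 20 5396)).step (sound tab_ok 20 5515)).step (sound tab_ok 20 5525)).step (sound tab_ok 20 5532))

theorem rootA_eq : rootA = 0xfffff3fff7fffffffffffffffffffffffff7ffffffffffffffffffffffffefffefffe0000000000000000000000000000008000000000000000000000000000000000 := by decide +kernel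

theorem rootN_eq : rootN = 0x8007801f803f803fe01fc00ff007e1fff0ffe0ffe03f803f001f001c001400000000000000000000000000000008000000000000000000000000000000000 := by decide +kernel

end Crest.Agent.H0047
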