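import Mathlib
import Crest.Prelude.Def_PolyominoGame

/-! A checker for winning certificates in the Snaky achievement game. -/

namespace Crest.Agent.H0047

open Crest.CombinatoricsR.PolyominoGame

abbrev Cell := ℤ × ℤ

/-- Maker, to move, owning `M` against `B`, completes a copy within `k` further moves -/
def Win : ℕ → Finset Cell → Finset Cell → Prop
  | 0, M, _ => ContainsCopy (M : Set Cell)
  | k + 1, M, B => ∃ m, m ∉ M ∧ m ∉ B ∧
      ∀ b, b ∉ insert m M → b ∉ B → Win k (insert m M) (insert b B)

lemma copy_mono {X Y : Set Cell} (h : X ⊆ Y) (hX : ContainsCopy X) : ContainsCopy Y := by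
  obtain ⟨t, a, b, ha, hb, h1⟩ := hX
  exact ⟨t, a, b, ha, hb, h1.imp (fun h1 p hp => h (h1 p hp)) fun h1 p hp => h (h1 p hp)⟩

lemma exists_fresh (M B : Finset Cell) : ∃ m, m ∉ M ∧ m ∉ B := by
  obtain ⟨m, hm⟩ := Infinite.exists_notMem_finset (M ∪ B)
  exact ⟨m, by simpa using hm⟩

lemma win_of_copy (k : ℕ) : ∀ {M B : Finset Cell}, ContainsCopy (M : Set Cell) → Win k M B := by
  induction k with
  | zero => exact fun h => h
  | succ k ih =>
    intro M B h
    obtain ⟨m, h1, h2⟩ := exists_fresh M B
    exact ⟨m, h1, h2, fun b _ _ => ih (copy_mono (by simp) h)⟩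

def cell (i : ℕ) : Cell := ((i % 16 : ℕ), (i / 16 : ℕ))

lemma cell_inj {i j : ℕ} (h : cell i = cell j) : i = j := by
  simp only [cell, Prod.mk.injEq, Nat.cast_inj] at h
  omega

/-- the hypotheses coded by a packed number -/
structure Hyp (k v : ℕ) (M B : Finset Cell) : Prop where
  mk' : ∀ i < 256, v.testBit i → cell i ∈ M
  br : ∀ i < 256, v.testBit (256 + i) → cell i ∉ B
  len : ∀ j, v.testBit (512 + j) → j < k

def Wk (k v : ℕ) : Prop := ∀ M B, Hyp k v M B → Win k M B

def Acc (k A N : ℕ) : Prop := (∀ i < 256, N.testBit (256 + i)) ∨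
  ∀ M B b, Hyp k A M B → (∀ i < 256, N.testBit (256 + i) → cell i ≠ b) → Win k M (insert b B)

lemma Hyp.left {k a b : ℕ} {M B : Finset Cell} (h : Hyp k (a ||| b) M B) : Hyp k a M B :=
  ⟨fun i hi t => h.1 i hi (by simp [t]), fun i hi t => h.2 i hi (by simp [t]),
    fun i t => h.3 i (by simp [t])⟩

lemma Hyp.right {k a b : ℕ} {M B : Finset Cell} (h : Hyp k (a ||| b) M B) : Hyp k b M B :=
  Hyp.left (by rwa [Nat.lor_comm] at h)

lemma Acc.step {k A N v : ℕ} (h : Acc k A N) (hv : Wk k v) : Acc k (A ||| v) (N &&& v) := by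
  refine Or.inr fun M B b hA hN => ?_
  by_cases hb : ∀ i < 256, v.testBit (256 + i) → cell i ≠ b
  · refine hv _ _ ⟨hA.right.1, fun i hi t => ?_, hA.right.3⟩
    simp [hb i hi t, hA.right.2 i hi t]
  · push Not at hb
    obtain ⟨i, hi, t, rfl⟩ := hb
    rcases h with h | h
    · exact absurd rfl (hN i hi (by simp [t, h i hi]))
    · refine h M B _ hA.left fun j hj t' e => ?_
      obtain rfl := cell_inj e
      exact hN j hj (by simp [t, t']) rfl

noncomputable def force (x : ℕ) (f : ℕ → ℕ) : ℕ :=
  Nat.rec (f (nat_lit 0)) (fun n _ => f (Nat.succ n)) x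

lemma force_eq (x : ℕ) (f : ℕ → ℕ) : force x f = f x := by cases x <;> rfl

def P256 : ℕ := nat_lit 115792089237316195423570985008687907853269984665640564039457584007913129639936

noncomputable def fin (m A N : ℕ) : ℕ :=
  force A fun A => force (Nat.shiftLeft (nat_lit 1) (Nat.mod m (nat_lit 256))) fun b =>
    Nat.xor (Nat.lor (Nat.lor (Nat.lor (Nat.lor A (Nat.mod (Nat.shiftRight N (nat_lit 256)) P256))
      (Nat.shiftLeft (Nat.succ (Nat.shiftLeft (Nat.shiftRight A (nat_lit 512)) (nat_lit 1)))
        (nat_lit 512))) (Nat.shiftLeft b (nat_lit 256))) b) b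

lemma fin_eq (m A N : ℕ) : fin m A N = (A ||| (N >>> 256) % 2 ^ 256 |||
    (2 * (A >>> 512) + 1) <<< 512 ||| 2 ^ (m % 256) <<< 256 ||| 2 ^ (m % 256)) ^^^ 2 ^ (m % 256) := by
  simp only [fin, force_eq]
  have e1 : Nat.shiftLeft (nat_lit 1) (Nat.mod m (nat_lit 256)) = 2 ^ (m % 256) :=
    Nat.one_shiftLeft _
  have e2 : Nat.shiftLeft (Nat.shiftRight A (nat_lit 512)) (nat_lit 1) = 2 * (A >>> 512) := by
    change (A >>> 512) <<< 1 = _
    rw [Nat.shiftLeft_eq]; ring
  have e3 : P256 = 2 ^ 256 := by norm_num [P256]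
  rw [e1, e2, e3]; rfl

lemma copy_low {M : Finset Cell} (s : ℕ) (hs : s = 0 ∨ s = 32)
    (h : ∀ i < 32, cell (s + i) ∈ M) : ContainsCopy (M : Set Cell) := by
  refine ⟨cell s, 1, 1, Or.inl rfl, Or.inl rfl, Or.inl fun p hp => ?_⟩
  have h0 := h 0 (by norm_num); have h1 := h 1 (by norm_num); have h2 := h 2 (by norm_num)
  have h3 := h 3 (by norm_num); have h4 := h 19 (by norm_num); have h5 := h 20 (by norm_num)
  simp only [snaky, Finset.mem_insert, Finset.mem_singleton] at hp
  rcases hs with rfl | rfl <;> rcases hp with rfl | rfl | rfl | rfl | rfl | rfl <;> assumption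

lemma fin_sound {k m A N : ℕ} (h : ∀ j, j + 1 = k → Acc j A N) : Wk k (fin m A N) := by
  intro M B hy
  rw [fin_eq] at hy
  have hm : m % 256 < 256 := Nat.mod_lt _ (by norm_num)
  generalize m % 256 = m at hy hm
  have a1 : ∀ i < 256, i ≠ m → (A.testBit i ∨ N.testBit (256 + i)) → cell i ∈ M := by
    intro i hi hne t
    refine hy.1 i hi ?_
    rcases t with t | t <;>
      simp [Nat.testBit_two_pow, hne.symm, t, Nat.testBit_mod_two_pow, hi, Nat.testBit_shiftRight,
        -Nat.reducePow]
  have a2 : ∀ i < 256, (A.testBit (256 + i) ∨ i = m) → cell i ∉ B := by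
    intro i hi t
    refine hy.2 i hi ?_
    have : m ≠ 256 + i := by omega
    rcases t with t | t <;> simp [Nat.testBit_two_pow, this, t, Nat.testBit_shiftLeft]
  have a3 : ∀ j, (2 * (A >>> 512) + 1).testBit j → j < k := by
    intro j t
    refine hy.3 j ?_
    have : m ≠ 512 + j := by omega
    simp [Nat.testBit_two_pow, this, t, Nat.testBit_shiftLeft]
  obtain ⟨k, rfl⟩ : ∃ k', k = k' + 1 := ⟨k - 1, by have := a3 0 (by simp [Nat.testBit_zero]); omega⟩
  rcases h k rfl with h | h
  · refine win_of_copy _ ?_
    by_cases hm' : m < 32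
    · exact copy_low 32 (Or.inr rfl) fun i hi => a1 _ (by omega) (by omega) (Or.inr (h _ (by omega)))
    · exact copy_low 0 (Or.inl rfl) fun i hi => a1 _ (by omega) (by omega) (Or.inr (h _ (by omega)))
  · have key : ∀ c, cell m ∈ insert c M → ∀ b, b ∉ insert c M →
        Win k (insert c M) (insert b B) := by
      intro c hc b hb
      have a4 : ∀ i < 256, (A.testBit i ∨ N.testBit (256 + i)) → cell i ∈ insert c M := by
        intro i hi t
        by_cases e : i = m
        · rwa [e]
        · exact Finset.mem_insert_of_mem (a1 i hi e t)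
      refine h _ _ _ ⟨fun i hi t => a4 i hi (Or.inl t), fun i hi t => a2 i hi (Or.inl t),
        fun j t => ?_⟩ fun i hi t e => hb (e ▸ a4 i hi (Or.inr t))
      have := a3 (j + 1) (by
        rw [Nat.testBit_succ, show (2 * A >>> 512 + 1) / 2 = A >>> 512 by omega,
          Nat.testBit_shiftRight]; exact t)
      omega
    by_cases hc : cell m ∈ M
    · obtain ⟨c, h1, h2⟩ := exists_fresh M B
      exact ⟨c, h1, h2, fun b hb _ => key c (Finset.mem_insert_of_mem hc) b hb⟩
    · exact ⟨cell m, hc, a2 m hm (Or.inr rfl),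
        fun b hb _ => key _ (Finset.mem_insert_self _ _) b hb⟩

/-- the eight shapes, in blocks of 80 bits -/
def BASES : ℕ := nat_lit 139236762573348693764139365985093732673922101584282019849907082455259511056936774871843579451903457162192740799137804497758153424699699373831210341396412942780980482654148266006824791572495

/-- the copy with code `c` -/
noncomputable def cp (c : ℕ) : ℕ :=
  Nat.shiftLeft (Nat.mod (Nat.shiftRight BASES (Nat.mul (nat_lit 80) (Nat.mod c (nat_lit 8))))
      (nat_lit 1208925819614629174706176))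
    (Bool.rec (nat_lit 0) (Nat.div c (nat_lit 8))
      (Nat.beq (Nat.mod (Nat.shiftRight (nat_lit 1300717227116954970412803590498840896714813876718029171340214325947372904538967819848023011309376945841429418262113212239907217600943815962627469687932394467729426996764801929506539559118475571875105999715957538387811758423788727571437566809311540481415322620911305318511203706488203134008571995100461373325371629286892600780171110222457084028519964534975375755551575918805081325095763734630899224727393049469812745210782532898927236762987882976847901417064502569226722716295240279858950279669098885900185867157779473513111353356088023385094075628931981908501935947775) c) (nat_lit 2)) (nat_lit 1)))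

def okc (v : ℕ) (q : Cell) : Bool :=
  decide (0 ≤ q.1) && decide (q.1 < 16) && decide (0 ≤ q.2) && decide (q.2 < 16) &&
    v.testBit (q.1 + 16 * q.2).toNat

def okw (v : ℕ) (t : Cell) (a b : ℤ) (s : Bool) : Bool :=
  [((0 : ℤ), (0 : ℤ)), (1, 0), (2, 0), (3, 0), (3, 1), (4, 1)].all fun p =>
    okc v (if s then (t.1 + a * p.2, t.2 + b * p.1) else (t.1 + a * p.1, t.2 + b * p.2))

lemma okc_sound {v : ℕ} {q : Cell} {M : Finset Cell} (h : okc v q = true)
    (hM : ∀ i < 256, v.testBit i → cell i ∈ M) : q ∈ M := by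
  simp only [okc, Bool.and_eq_true, decide_eq_true_eq] at h
  obtain ⟨⟨⟨⟨h1, h2⟩, h3⟩, h4⟩, h5⟩ := h
  have := hM _ (by omega) h5
  convert this
  ext <;> simp only [cell] <;> omega

lemma okw_sound {v : ℕ} {t : Cell} {a b : ℤ} {s : Bool} {M : Finset Cell}
    (ha : a = 1 ∨ a = -1) (hb : b = 1 ∨ b = -1) (h : okw v t a b s = true)
    (hM : ∀ i < 256, v.testBit i → cell i ∈ M) : ContainsCopy (M : Set Cell) := by
  rw [okw, List.all_eq_true] at h
  refine ⟨t, a, b, ha, hb, ?_⟩
  cases s
  · exact Or.inl fun p hp => okc_sound (h p (by simpa [snaky] using hp)) hM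
  · exact Or.inr fun p hp => okc_sound (h p (by simpa [snaky] using hp)) hM

def sg (x : ℕ) : ℤ := if x % 2 = 0 then 1 else -1

lemma sg_eq (x : ℕ) : sg x = 1 ∨ sg x = -1 := by unfold sg; split_ifs <;> simp

/-- the witness for the copy with shape `o` and shift `s` -/
def wit (v o s : ℕ) : Bool :=
  okw v ((s % 16 + (if o % 2 = 0 then 0 else if o / 4 = 0 then 4 else 1) : ℕ),
    (s / 16 + (if o / 2 % 2 = 0 then 0 else if o / 4 = 0 then 1 else 4) : ℕ))
    (sg o) (sg (o / 2)) (o / 4 == 1)

lemma cp_small : ∀ c < 2048, (wit (cp c) (c % 8) (c / 8) || wit (cp c) (c % 8) 0) = true := by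
  decide +kernel

lemma cp_sound (c : ℕ) {M : Finset Cell} (hM : ∀ i < 256, (cp c).testBit i → cell i ∈ M) :
    ContainsCopy (M : Set Cell) := by
  have key : ∀ c < 2048, (∀ i < 256, (cp c).testBit i → cell i ∈ M) →
      ContainsCopy (M : Set Cell) := by
    intro c hc hM
    rcases Bool.or_eq_true_iff.1 (cp_small c hc) with h | h <;>
      exact okw_sound (sg_eq _) (sg_eq _) h hM
  by_cases hc : c < 2048
  · exact key c hc hM
  · refine key (c % 8) (by omega) ?_
    have e : Nat.shiftRight (nat_lit 1300717227116954970412803590498840896714813876718029171340214325947372904538967819848023011309376945841429418262113212239907217600943815962627469687932394467729426996764801929506539559118475571875105999715957538387811758423788727571437566809311540481415322620911305318511203706488203134008571995100461373325371629286892600780171110222457084028519964534975375755551575918805081325095763734630899224727393049469812745210782532898927236762987882976847901417064502569226722716295240279858950279669098885900185867157779473513111353356088023385094075628931981908501935947775)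 c = 0 := by
      refine Nat.shiftRight_eq_zero _ _ (lt_of_lt_of_le (b := 2 ^ 2048) (by decide +kernel) ?_)
      exact Nat.pow_le_pow_right (by norm_num) (by omega)
    have e2 : cp c = cp (c % 8) := by
      have e3 : Nat.div (c % 8) (nat_lit 8) = 0 := Nat.div_eq_of_lt (Nat.mod_lt _ (by norm_num))
      have e4 : Nat.mod (c % 8) (nat_lit 8) = Nat.mod c (nat_lit 8) := Nat.mod_mod _ _
      unfold cp
      rw [e, e3, e4]
      have e5 : ∀ x : Bool, Bool.rec (motive := fun _ => ℕ) (nat_lit 0) 0 x = 0 := by
        intro x; cases x <;> rfl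
      rw [e5]; rfl
    rwa [← e2]

/-- lists of children -/
inductive L
  | e
  | o (c m : ℕ) (r : L)
  | f (i : ℕ) (r : L)
  | n (m : ℕ) (c r : L)

/-- search tree of shared positions -/
inductive Tb
  | l (v m : ℕ) (c : L)
  | n (p : ℕ) (a b : Tb)

noncomputable def get (t : Tb) (i : ℕ) : ℕ :=
  Tb.rec (fun v _ _ => v) (fun p _ _ a b => Bool.rec b a (Nat.ble i p)) t

def FULL : ℕ := nat_lit 13407807929942597099574024998205846127479365820592393377723561443721764030073546976801874298166903427690031858186486050853753882811946569946433649006084095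

noncomputable def ev (t : Tb) (l : L) : ℕ → ℕ → ℕ → ℕ :=
  L.rec (fun m A N => fin m A N)
    (fun c m' _ r m A N => force (fin m' (cp c) (nat_lit 0)) fun v =>
      r m (Nat.lor A v) (Nat.land N v))
    (fun i _ r m A N => force (get t i) fun v => r m (Nat.lor A v) (Nat.land N v))
    (fun m' _ _ c r m A N => force (c m' (nat_lit 0) FULL) fun v =>
      r m (Nat.lor A v) (Nat.land N v)) l

noncomputable def all (t s : Tb) : Bool :=
  Tb.rec (fun v m c => Nat.beq (ev t c m (nat_lit 0) FULL) v)
    (fun _ _ _ a b => Bool.rec false b a) s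

lemma ev_o (t : Tb) (c m' : ℕ) (r : L) (m A N : ℕ) : ev t (L.o c m' r) m A N
    = ev t r m (A ||| fin m' (cp c) 0) (N &&& fin m' (cp c) 0) :=
  force_eq (fin m' (cp c) 0) fun v => ev t r m (A ||| v) (N &&& v)

lemma ev_f (t : Tb) (i : ℕ) (r : L) (m A N : ℕ) : ev t (L.f i r) m A N
    = ev t r m (A ||| get t i) (N &&& get t i) :=
  force_eq (get t i) fun v => ev t r m (A ||| v) (N &&& v)

lemma ev_n (t : Tb) (m' : ℕ) (c r : L) (m A N : ℕ) : ev t (L.n m' c r) m A N
    = ev t r m (A ||| ev t c m' 0 FULL) (N &&& ev t c m' 0 FULL) :=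
  force_eq (ev t c m' 0 FULL) fun v => ev t r m (A ||| v) (N &&& v)

lemma acc_full (k : ℕ) : Acc k 0 FULL := Or.inl (by decide +kernel)

lemma ev_sound (t : Tb) (l : L) : ∀ k m A N, (∀ j < k, ∀ i, Wk j (get t i)) →
    (∀ j, j + 1 = k → Acc j A N) → Wk k (ev t l m A N) := by
  induction l with
  | e => exact fun k m A N _ h => fin_sound h
  | o c m' r ih =>
    intro k m A N h1 h2
    rw [ev_o]
    refine ih k m _ _ h1 fun j hj => (h2 j hj).step (fin_sound fun j' _ => Or.inr ?_)
    exact fun M B b hy _ => win_of_copy _ (cp_sound c hy.1)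
  | f i r ih =>
    intro k m A N h1 h2
    rw [ev_f]
    exact ih k m _ _ h1 fun j hj => (h2 j hj).step (h1 j (by omega) i)
  | n m' c r ihc ih =>
    intro k m A N h1 h2
    rw [ev_n]
    exact ih k m _ _ h1 fun j hj => (h2 j hj).step
      (ihc j m' _ _ (fun j' hj' => h1 j' (by omega)) fun j' _ => acc_full j')

lemma all_n (t : Tb) (p : ℕ) {a b : Tb} (ha : all t a = true) (hb : all t b = true) :
    all t (Tb.n p a b) = true := by
  change Bool.rec false (all t b) (all t a) = true
  rw [ha]; exact hb

lemma get_sound (t : Tb) {k : ℕ} (hk : ∀ j < k, ∀ i, Wk j (get t i)) (s : Tb) :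
    all t s = true → ∀ i, Wk k (get s i) := by
  induction s with
  | l v m c =>
    intro h i
    have : ev t c m 0 FULL = v := Nat.eq_of_beq_eq_true h
    change Wk k v
    rw [← this]
    exact ev_sound t c k m _ _ hk fun j _ => acc_full j
  | n p a b iha ihb =>
    intro h i
    change Bool.rec false (all t b) (all t a) = true at h
    change Wk k (Bool.rec (get b i) (get a i) (Nat.ble i p))
    cases h1 : all t a
    · rw [h1] at h; exact absurd h (by simp)
    · rw [h1] at h
      cases Nat.ble i p
      · exact ihb h i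
      · exact iha h1 i

theorem sound {t : Tb} (h : all t t = true) (k : ℕ) : ∀ i, Wk k (get t i) := by
  induction k using Nat.strong_induction_on with
  | _ k ih => exact get_sound t ih t h

end Crest.Agent.H0047
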