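import Crest.Agent.H0047.Tab

namespace Crest.Agent.H0047

theorem ok0 : all tab c0 = true := by decide +kernel

theorem ok1 : all tab c1 = true := by decide +kernel

theorem ok2 : all tab c2 = true := by decide +kernel

theorem ok3 : all tab c3 = true := by decide +kernel

theorem ok4 : all tab c4 = true := by decide +kernel

theorem ok5 : all tab c5 = true := by decide +kernel

theorem ok6 : all tab c6 = true := by decide +kernel

theorem ok7 : all tab c7 = true := by decide +kernel

end Crest.Agent.H0047
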