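import Crest.Agent.H0047.D0
import Crest.Agent.H0047.D1
import Crest.Agent.H0047.D2
import Crest.Agent.H0047.D3
import Crest.Agent.H0047.D4
import Crest.Agent.H0047.D5
import Crest.Agent.H0047.D6
import Crest.Agent.H0047.D7

namespace Crest.Agent.H0047

noncomputable def tab : Tb :=
(Tb.n 2765 (Tb.n 1382 (Tb.n 690 (Tb.n 344 (Tb.n 171 (Tb.n 85 c0 c1) (Tb.n 257 c2 c3)) (Tb.n 517 (Tb.n 430 c4 c5) (Tb.n 603 c6 c7))) (Tb.n 1036 (Tb.n 863 (Tb.n 776 c8 c9) (Tb.n 949 c10 c11)) (Tb.n 1209 (Tb.n 1122 c12 c13) (Tb.n 1295 c14 c15)))) (Tb.n 2073 (Tb.n 1727 (Tb.n 1554 (Tb.n 1468 c16 c17) (Tb.n 1640 c18 c19)) (Tb.n 1900 (Tb.n 1813 c20 c21) (Tb.n 1986 c22 c23))) (Tb.n 2419 (Tb.n 2246 (Tb.n 2159 c24 c25) (Tb.n 2332 c26 c27)) (Tb.n 2592 (Tb.n 2505 c28 c29) (Tb.n 2678 c30 c31))))) (Tb.n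 4148 (Tb.n 3456 (Tb.n 3110 (Tb.n 2937 (Tb.n 2851 c32 c33) (Tb.n 3023 c34 c35)) (Tb.n 3283 (Tb.n 3196 c36 c37) (Tb.n 3369 c38 c39))) (Tb.n 3802 (Tb.n 3629 (Tb.n 3542 c40 c41) (Tb.n 3715 c42 c43)) (Tb.n 3975 (Tb.n 3888 c44 c45) (Tb.n 4061 c46 c47)))) (Tb.n 4840 (Tb.n 4494 (Tb.n 4321 (Tb.n 4234 c48 c49) (Tb.n 4407 c50 c51)) (Tb.n 4667 (Tb.n 4580 c52 c53) (Tb.n 4753 c54 c55))) (Tb.n 5186 (Tb.n 5013 (Tb.n 4926 c56 c57) (Tb.n 5099 c58 c59)) (Tb.n 5359 (Tb.n 5272 c60 c61) (Tb.n 5445 c62 c63))))))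

end Crest.Agent.H0047
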